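import Crest.Agent.X262.St91.Defs
import Crest.Agent.X277.Cns.Prod
import Crest.Agent.X277.GF.Kun
import Crest.Agent.X277.Neg.Loc

/-!
# Row 262, G4 / START (helper12): a class which separates points on `S × S` is ample

* `mem_loc_of_dom` : `loc A V` is the intersection of the valuation rings which dominate it;
* `sep`            : the sections of `M` separate the points of `P`;
* `amp_of_sep`     : a free class which separates the points is ample;
* `ampStmt : St91.AmpStmt`.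
-/

set_option autoImplicit false

open Set Filter Topology

noncomputable section

namespace Crest.Agent.X262.StAmp

open Crest.Agent.X277 Crest.Agent.X277.Lef Crest.Agent.X277.AN.G1 Crest.Agent.X277.BD
open Crest.Agent.X277.BD.Br Crest.Agent.X277.Pst
open Crest.Agent.X277.Cns (Ov KV)
open Crest.Agent.X262.St91 (wd dgl)
open Crest.Agent.R274.Prod1_134 (IsPF)

/-- a local ring of the model is the intersection of the valuation rings which dominate it -/
theorem mem_loc_of_dom {E K : Type*} [Field E] [Field K] [Algebra E K] {A : BD E K} {V : RZ E K}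
    {f : K} (h : ∀ W : RZ E K, (∀ x ∈ loc A V, x ∈ W.1) →
      (∀ x ∈ loc A V, W.v x = 1 → V.v x = 1) → f ∈ W.1) : f ∈ loc A V := by
  by_contra hf
  have hu : ∀ x : (loc A V).toSubring, V.v x = 1 → IsUnit x := fun x hx =>
    IsUnit.of_mul_eq_one ⟨_, Neg.inv_mem_loc x.2 hx⟩
      (Subtype.ext (mul_inv_cancel₀ (RZ.ne_zero_iff.1 (hx ▸ one_ne_zero))))
  have : IsLocalRing (loc A V).toSubring :=
    IsLocalRing.of_isUnit_or_isUnit_one_sub_self fun x => by
      rcases (RZ.le_one_iff.2 (mem_of_loc x.2)).eq_or_lt with h1 | h1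
      · exact Or.inl (hu x h1)
      · exact Or.inr (hu _ (V.v.map_one_sub_of_lt h1))
  have : IsIntegrallyClosedIn (loc A V).toSubring K :=
    isIntegrallyClosedIn_iff.2 ⟨Subtype.val_injective, fun hx =>
      ⟨⟨_, Neg.mem_loc_of_int (fun r => r.2) hx⟩, rfl⟩⟩
  obtain ⟨W, ⟨h1, h2⟩, h3⟩ := LocalSubring.exists_le_valuationSubring_of_isIntegrallyClosedIn
    (R := LocalSubring.mk (loc A V).toSubring) hf
  refine h3 (h ⟨W, fun c => h1 (algebraMap_mem (loc A V) c)⟩ (fun x hx => h1 hx) fun x hx hW => ?_)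
  obtain ⟨y, hy⟩ :=
    (h2.map_nonunit ⟨x, hx⟩ ((W.valuation_eq_one_iff ⟨x, h1 hx⟩).2 hW)).exists_right_inv
  have h4 : V.v x * V.v y = 1 := by
    rw [← map_mul, show x * (y : K) = 1 from congrArg Subtype.val hy, map_one]
  refine le_antisymm (RZ.le_one_iff.2 (mem_of_loc hx)) ?_
  rw [← h4]
  exact mul_le_of_le_one_right' (RZ.le_one_iff.2 (mem_of_loc y.2))

variable {F L : Type} [Field F] [Algebra ℂ F] [Field L] [Algebra ℂ L] {P : PModel ℂ F}
  {α β : F →ₐ[ℂ] L} {M : BD ℂ F} {x x' : Pts P} {u u' : F}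

/-- a model of positive dimension has more than one point -/
theorem exists_ne (hd : dim ℂ F ≠ 0) (x : Pts P) : ∃ x' : Pts P, x' ≠ x := by
  by_contra hc
  push Not at hc
  obtain ⟨i, hi⟩ := exists_pat x
  have h1 : ∀ a ∈ P.A i, a ∈ (algebraMap ℂ F).range := fun a ha => by
    refine ⟨ev a x, (sub_eq_zero.1 (by_contra fun h0 => ?_)).symm⟩
    obtain ⟨x', -, h2⟩ := exists_ev_ne (sub_mem ha (algebraMap_mem _ _)) h0
    rw [hc x'] at h2
    exact h2 (LP.v_sub_v (A_le hi ha))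
  have h2 : Function.Surjective (algebraMap ℂ F) := fun f => by
    obtain ⟨a, ha, c, hc, -, rfl⟩ := P.frac' i f
    obtain ⟨a, rfl⟩ := h1 a ha
    obtain ⟨c, rfl⟩ := h1 c hc
    exact ⟨a / c, map_div₀ _ _ _⟩
  have := KaehlerDifferential.subsingleton_of_surjective ℂ F h2
  exact hd Module.finrank_zero_of_subsingleton

/-- points with proportional coordinates -/
theorem eq_of_par {i j : Fin (P.N + 1)} (hi : x ∈ pat P i) (hj : x' ∈ pat P j)
    (h : ∀ a b, ev (P.y a / P.y i) x * ev (P.y b / P.y j) x' =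
      ev (P.y b / P.y i) x * ev (P.y a / P.y j) x') : x = x' := by
  have h1 : ∀ (z : Pts P) a, ev (P.y a / P.y a) z = 1 := fun z a => by
    rw [div_self (P.y_ne a)]
    exact (lp z).v_one
  have h2 : ev (P.y i / P.y j) x' ≠ 0 := fun h0 => by
    have h3 := h i j
    rw [h1, h1, h0, mul_zero, mul_one] at h3
    exact one_ne_zero h3
  refine pt_ext hi ((mem_pat_iff hj).2 h2) fun b => ?_
  have h3 := h i b
  rw [h1, one_mul] at h3
  have h4 : ev (P.y b / P.y i) x' = ev (P.y b / P.y j) x' / ev (P.y i / P.y j) x' := by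
    rw [← div_div_div_cancel_right₀ (P.y_ne j)]
    exact LP.v_div (y_mem hj b) h2
  rw [h4, h3, mul_div_cancel_right₀ _ h2]

section Prod

variable (h : IsPF α β)

theorem at_mk {a b : BD ℂ F} (hu : At a x u) (hu' : At b x' u') :
    At (pb α a + pb β b) (Cns.mk h x x') (α u * β u') :=
  (At.pb (Cns.fst_p P P h) (by rwa [Cns.fst_mk])).add
    (At.pb (Cns.snd_p P P h) (by rwa [Cns.snd_mk]))

variable (α β P) in
/-- the equations of the diagonal -/
abbrev dw : Fin (P.N + 1) × Fin (P.N + 1) → L := wd (fun i => α (P.y i)) fun i => β (P.y i)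

omit h in
theorem dw_mem (p : Fin (P.N + 1) × Fin (P.N + 1)) :
    dw P α β p ∈ (pb α (oP P) + pb β (oP P)).Sec :=
  sub_mem (mul_mem_Sec (pb_mem_Sec (y_mem_Sec _)) (pb_mem_Sec (y_mem_Sec _)))
    (mul_mem_Sec (pb_mem_Sec (y_mem_Sec _)) (pb_mem_Sec (y_mem_Sec _)))

theorem ev_dw {i j : Fin (P.N + 1)} (hi : x ∈ pat P i) (hj : x' ∈ pat P j)
    (p : Fin (P.N + 1) × Fin (P.N + 1)) :
    ev (dw P α β p / (α (P.y i) * β (P.y j))) (Cns.mk h x x') =
      ev (P.y p.1 / P.y i) x * ev (P.y p.2 / P.y j) x' -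
        ev (P.y p.2 / P.y i) x * ev (P.y p.1 / P.y j) x' := by
  rw [← Cns.ev_mk h (y_mem hi _) (y_mem hj _), ← Cns.ev_mk h (y_mem hi _) (y_mem hj _)]
  simp only [dw, wd, map_div₀, div_mul_div_comm, sub_div]
  refine LP.v_sub ?_ ?_
  · simpa only [map_div₀, div_mul_div_comm] using Cns.mem_mk h (y_mem hi p.1) (y_mem hj p.2)
  · simpa only [map_div₀, div_mul_div_comm] using Cns.mem_mk h (y_mem hi p.2) (y_mem hj p.1)

theorem exists_dw (hx : x ≠ x') :
    ∃ p, At (pb α (oP P) + pb β (oP P)) (Cns.mk h x x') (dw P α β p) := by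
  obtain ⟨i, hi⟩ := exists_pat x
  obtain ⟨j, hj⟩ := exists_pat x'
  by_contra hc
  refine hx (eq_of_par hi hj fun a b => sub_eq_zero.1 (by_contra fun h0 => hc ⟨(a, b), ?_⟩))
  exact (at_mk h (at_y hi) (at_y hj)).of_ev' (by rwa [ev_dw h hi hj])

omit h in
theorem val_dgl (U : RZ ℂ L) : (dgl α β P.y).val U =
    (pb α (oP P) + pb β (oP P)).val U / (mxf ℂ (dw P α β)).val U := val_sub _ _ _

omit h in
theorem one_le_dgl (h0 : ∃ p, dw P α β p ≠ 0) (U : RZ ℂ L) : 1 ≤ (dgl α β P.y).val U := by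
  obtain ⟨p, hp⟩ := exists_val_mxf (k := ℂ) h0 U
  rw [val_dgl, one_le_div₀ (val_pos _ _), ← hp]
  exact dw_mem p U

/-- the diagonal does not pass through `(x, x')` -/
theorem dgl_ne (hx : x ≠ x') {U : RZ ℂ L} (hU : Ov (Cns.mk h x x') U.1) :
    (dgl α β P.y).val U = 1 := by
  obtain ⟨p, hp⟩ := exists_dw h hx
  refine le_antisymm ?_ (one_le_dgl ⟨p, hp.ne⟩ U)
  rw [val_dgl, div_le_one₀ (val_pos _ _), ← hp U hU]
  exact mem_Sec_mxf _ p U

/-- the diagonal passes through `(x, x)` -/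
theorem dgl_eq (h0 : ∃ p, dw P α β p ≠ 0) {U : RZ ℂ L} (hU : Ov (Cns.mk h x x) U.1)
    (hd : ∀ f ∈ (lp (Cns.mk h x x)).O, U.v f = 1 ↔ ev f (Cns.mk h x x) ≠ 0) :
    1 < (dgl α β P.y).val U := by
  refine (one_le_dgl h0 U).lt_of_ne fun h1 => ?_
  obtain ⟨i, hi⟩ := exists_pat x
  obtain ⟨p, hp⟩ := exists_val_mxf (k := ℂ) h0 U
  rw [val_dgl, eq_comm, div_eq_one_iff_eq (val_ne _ _), ← hp] at h1
  have h2 := at_mk h (at_y hi) (at_y hi)
  refine (h2.of_dom hU hd (dw_mem p) h1.symm).ev_div_ne h2 ?_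
  rw [ev_dw h hi hi, mul_comm, sub_self]

include h in
/-- **separation of points** -/
theorem sep [Algebra.EssFiniteType ℂ F] {m : ℕ} (hm : 0 < m)
    (hf : Free (pb α M + pb β M - m • dgl α β P.y)) (hu : At M x u) (hu' : At M x' u') {c : ℂ}
    (hc : ∀ s ∈ M.Sec, ev (s / u') x' = c * ev (s / u) x) : x = x' := by
  by_contra hx
  have h0 : ∃ p, dw P α β p ≠ 0 := (exists_dw h hx).imp fun p hp => hp.ne
  obtain ⟨U, hU, hd⟩ := exists_dom (Cns.mk h x x')
  obtain ⟨U', hU', hd'⟩ := exists_dom (Cns.mk h x x)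
  obtain ⟨G, hG, h1⟩ := hf.exists_gen U
  have h2 : G ∈ (pb α M + pb β M).Sec := fun W => (hG W).trans (by
    rw [val_sub, val_nsmul, div_le_iff₀ (pow_pos (val_pos _ _) _)]
    exact le_mul_of_one_le_right' (one_le_pow₀ (one_le_dgl h0 W)))
  have h3 : ev (G / (α u * β u')) (Cns.mk h x x') ≠ 0 :=
    ((at_mk h hu hu').of_dom hU hd h2 (by
      rw [h1, val_sub, val_nsmul, dgl_ne h hx hU, one_pow, div_one])).ev_div_ne (at_mk h hu hu')
  have h4 : ev (G / (α u * β u)) (Cns.mk h x x) = 0 := by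
    by_contra h4
    have h5 := hG U'
    rw [(at_mk h hu hu).of_ev' h4 U' hU', val_sub, val_nsmul,
      le_div_iff₀ (pow_pos (val_pos _ _) _), mul_le_iff_le_one_right (val_pos _ _)] at h5
    exact (one_lt_pow₀ (dgl_eq h h0 hU' hd') hm.ne').not_ge h5
  have h5 : ∀ G ∈ (pb α M + pb β M).Sec, ev (G / (α u * β u')) (Cns.mk h x x') =
      c * ev (G / (α u * β u)) (Cns.mk h x x) := fun G hG => by
    have e := GF.kunneth_span h M M
    rw [e] at hG
    induction hG using Submodule.span_induction with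
    | mem G hG =>
      obtain ⟨v, hv, w, hw, rfl⟩ := hG
      simp only [← div_mul_div_comm, ← map_div₀]
      rw [Cns.ev_mk h (hu.div_mem hv) (hu'.div_mem hw), Cns.ev_mk h (hu.div_mem hv) (hu.div_mem hw),
        hc w hw, mul_left_comm]
    | zero => simp [ev]
    | add G G' hG hG' h6 h7 =>
      rw [← e] at hG hG'
      unfold ev at h6 h7 ⊢
      rw [add_div, add_div, LP.v_add _ ((at_mk h hu hu').div_mem hG) ((at_mk h hu hu').div_mem hG'),
        LP.v_add _ ((at_mk h hu hu).div_mem hG) ((at_mk h hu hu).div_mem hG'), h6, h7, mul_add]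
    | smul r G hG h6 =>
      rw [← e] at hG
      unfold ev at h6 ⊢
      rw [smul_div_assoc, smul_div_assoc, LP.v_smul r ((at_mk h hu hu').div_mem hG),
        LP.v_smul r ((at_mk h hu hu).div_mem hG), h6, mul_left_comm]
  exact h3 (by rw [h5 G h2, h4, mul_zero])

end Prod

/-- the sections of `M` separate the points of `P` -/
def Sep (P : PModel ℂ F) (M : BD ℂ F) : Prop := ∀ (x x' : Pts P) (u u' : F) (c : ℂ), At M x u →
  At M x' u' → (∀ s ∈ M.Sec, ev (s / u') x' = c * ev (s / u) x) → x = x'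

theorem Sep.free (hd : dim ℂ F ≠ 0) (hM : M ∈ On P) (h : Sep P M) : Free M := by
  refine free_of_at (P := P) fun x' => by_contra fun hc => ?_
  obtain ⟨x, hx⟩ := exists_ne hd x'
  obtain ⟨u, hu⟩ := hM x
  obtain ⟨u', hu'⟩ := hM x'
  refine hx (h x x' u u' 0 hu hu' fun s hs => ?_)
  rw [zero_mul]
  exact by_contra fun h0 => hc ⟨s, hs, hu'.of_ev' h0⟩

/-- the local rings of `P` are local rings of the `M`-model -/
theorem Sep.le_loc (hM : M ∈ On P) (hf : Free M) (h : Sep P M) {V : RZ ℂ F} (hV : Ov x V.1)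
    (hd : ∀ f ∈ (lp x).O, V.v f = 1 ↔ ev f x ≠ 0) {f : F} (hx : f ∈ (lp x).O) : f ∈ loc M V := by
  refine mem_loc_of_dom fun W h1 h2 => ?_
  obtain ⟨s₀, hs₀, h3⟩ := (free_iff_at hM).1 hf x
  obtain ⟨x', hx'⟩ := exists_ov' P W
  obtain ⟨u', hu'⟩ := hM x'
  have h4 : ∀ s ∈ M.Sec, s / s₀ ∈ loc M V := fun s hs =>
    div_mem_loc (m := 1) (by simpa using hs) (by simpa using hs₀) (by simpa using h3 V hV)
  have h5 : W.v s₀ = M.val W := by
    obtain ⟨s, hs, h5⟩ := hf.exists_gen W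
    exact le_antisymm (hs₀ W) (h5 ▸ (RZ.le_iff h3.ne).2 (h1 _ (h4 s hs)))
  obtain rfl : x = x' := h x x' s₀ u' (ev (s₀ / u') x') h3 hu' fun s hs => by
    have h6 : s - ev (s / s₀) x • s₀ ∈ M.Sec := sub_mem hs (M.Sec.smul_mem _ hs₀)
    have h7 : ev ((s - ev (s / s₀) x • s₀) / u') x' = 0 := by
      by_contra h7
      refine (hd _ (h3.div_mem h6)).1 (h2 _ (h4 _ h6) ?_) ?_
      · rw [map_div₀, hu'.of_ev' h7 W hx', h5, div_self (val_ne _ _)]
      · rw [sub_div, smul_div_assoc, div_self h3.ne, ← Algebra.algebraMap_eq_smul_one]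
        exact LP.v_sub_v (h3.div_mem hs)
    unfold ev at h7 ⊢
    rw [sub_div, smul_div_assoc, LP.v_sub (hu'.div_mem hs)
      (Subalgebra.smul_mem _ (hu'.div_mem hs₀) _), LP.v_smul _ (hu'.div_mem hs₀), sub_eq_zero] at h7
    rw [h7, mul_comm]
  exact hx' f hx

/-- **a class which separates the points is ample** -/
theorem amp_of_sep (hM : M ∈ On P) (hf : Free M) (h : Sep P M) :
    ∃ q : ℕ, ∀ n, q ≤ n → Free (n • M - oP P) := by
  classical
  have key : ∀ x : Pts P, ∃ m : ℕ, ∃ g ∈ (m • M - oP P).Sec, At (m • M - oP P) x g := fun x => by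
    obtain ⟨V, hV, hd⟩ := exists_dom x
    obtain ⟨j, hj⟩ := exists_pat x
    obtain ⟨m, g, h1, h2, h3⟩ := Neg.exists_gen_fin (A := M) (V := V)
      (Finset.univ.image fun l => P.y l / P.y j) (Finset.forall_mem_image.2 fun l _ =>
        h.le_loc hM hf hV hd (y_mem hj l))
    have h4 : g / P.y j ∈ (m • M - oP P).Sec := fun W => by
      obtain ⟨l, hl⟩ := exists_val_mxf (k := ℂ) ⟨0, P.y_ne 0⟩ W
      have h5 := h3 _ (Finset.mem_image_of_mem _ (Finset.mem_univ l)) W
      rw [val_sub, le_div_iff₀ (val_pos _ _), oP, ← hl, ← map_mul]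
      rwa [show g / P.y j * P.y l = P.y l / P.y j * g by ring]
    obtain ⟨u, hu⟩ := hM x
    exact ⟨m, _, h4, ((hu.nsmul m).sub (at_y hj)).of_dom hV hd h4 (by
      rw [map_div₀, h2, at_y hj V hV, val_sub])⟩
  choose m g h1 h2 using key
  obtain ⟨T, -, hT⟩ := isCompact_univ.elim_nhds_subcover _ fun x _ => (h2 x).eventually
  refine ⟨T.sup m, fun n hn => free_of_at (P := P) fun x => ?_⟩
  obtain ⟨t, ht, h3⟩ := mem_iUnion₂.1 (hT (mem_univ x))
  obtain ⟨e, rfl⟩ := Nat.exists_eq_add_of_le ((Finset.le_sup (f := m) ht).trans hn)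
  obtain ⟨s, hs, h4⟩ := (free_iff_at hM).1 hf x
  rw [add_nsmul, add_sub_right_comm]
  exact ⟨_, mul_mem_Sec (h1 t) (pow_mem_Sec hs e), At.add h3 (h4.nsmul e)⟩

theorem ampStmt : St91.AmpStmt := fun F L _ _ _ _ _ P α β hd h M hM m hm hf => by
  have h1 : Sep P M := fun x x' u u' c hu hu' hc => sep h hm hf hu hu' hc
  obtain ⟨q, hq⟩ := amp_of_sep hM (h1.free (by omega) hM) h1
  exact ⟨q + 1, q.succ_pos, hq _ q.le_succ⟩

end Crest.Agent.X262.StAmp
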